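import Vale.Agent.P322.Check.Data.Exit
import Vale.Agent.P322.Scalar.AtomExists
import Vale.Agent.P322.Scalar.ExitSmall
import Vale.Agent.P322.Scalar.Path

/-!
# Courtade–Kumar: the first term of the profile passes the step up to `log 2 - 1/4`
-/

namespace Vale.Agent.P322

open Real Set

lemma exp_quarter_ge : (1284 / 1000 : ℝ) ≤ exp (1 / 4) := by
  refine le_trans ?_ (sum_le_exp_of_nonneg (by norm_num) 7)
  norm_num [Finset.sum_range_succ, Nat.factorial]

/-- **Exit lemma.** The bound at `D = log 2 - 1/4` along a tilted path. -/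
theorem exit_atom {a b t : ℝ} (ha : 0 ≤ a) (hb : 0 < b) (ht : t ∈ Ioc (0 : ℝ) 1)
    (hX : tiltD (tanh (a + b)) (tanh (a - b)) t = log 2 - 1 / 4)
    (hκ : -log ((1 + toCorner t ((tanh (a + b) + tanh (a - b)) / 2)) / 2) ≤ log 2 - 1 / 4) :
    F0 (tiltD (tanh (a + b)) (tanh (a - b)) t)
        - F0 (tiltD (tanh (a + b)) (tanh (a - b)) t
          - gapEnt (toCorner t (tanh (a + b))) (toCorner t (tanh (a - b))))
      ≤ t * (b * (tanh (a + b) - tanh (a - b)) / 2) := by
  set x := tanh (a + b) with hxd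
  set y := tanh (a - b) with hyd
  have hx : x ∈ Ioo (-1 : ℝ) 1 := ⟨neg_one_lt_tanh _, tanh_lt_one _⟩
  have hy : y ∈ Ioo (-1 : ℝ) 1 := ⟨neg_one_lt_tanh _, tanh_lt_one _⟩
  have hyx : y < x := strictMono_tanh' (by linarith)
  have hM : (x + y) / 2 ∈ Ioo (-1 : ℝ) 1 :=
    ⟨by linarith [hx.1, hy.1], by linarith [hx.2, hy.2]⟩
  set m := toCorner t ((x + y) / 2) with hm
  set d := t * ((x - y) / 2) with hd
  set H := t * ((ent x + ent y) / 2) with hH
  have hmI := toCorner_mem ht.1 ht.2 hM
  rw [← hm] at hmI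
  have ep : m + d = toCorner t x := by rw [hm, hd, toCorner, toCorner]; ring
  have eq : m - d = toCorner t y := by rw [hm, hd, toCorner, toCorner]; ring
  have hd0 : 0 < d := mul_pos ht.1 (by linarith)
  have hmd : m + d < 1 := by rw [ep]; exact (toCorner_mem ht.1 ht.2 hx).2
  have hH0 : 0 < H := by
    refine mul_pos ht.1 ?_
    linarith [ent_tanh_pos (a + b), ent_tanh_pos (a - b)]
  have hHX : H = ent m - log 2 + 1 / 4 := by
    rw [tiltD, ← hm] at hX; rw [hH]; linarith
  have eT : tiltD x y t - gapEnt (toCorner t x) (toCorner t y)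
      = (ent (m + d) + ent (m - d)) / 2 - H := by rw [tiltD_sub_gap, ep, eq]
  have hE : H ≤ (ent (m + d) + ent (m - d)) / 2 :=
    sub_nonneg.1 (eT ▸ tilt_rest_nonneg hx hy ht.1 ht.2)
  have hm284 : 284 / 1000 ≤ m := by
    have h1 : (0 : ℝ) < (1 + m) / 2 := by linarith [hmI.1]
    have h2 : exp (1 / 4) ≤ 1 + m := by
      have : 1 / 4 ≤ log (1 + m) := by
        rw [log_div (by linarith) two_ne_zero] at hκ; linarith
      calc exp (1 / 4) ≤ exp (log (1 + m)) := exp_le_exp.2 this
        _ = 1 + m := exp_log (by linarith)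
    linarith [exp_quarter_ge]
  have hK : Check.Edge m d H (t * (b * (x - y) / 2)) := by
    refine ⟨mul_nonneg ht.1.le (div_nonneg (mul_nonneg hb.le (by linarith)) two_pos.le),
      fun a' b' ha' hb' => ?_⟩
    have h := mul_le_mul_of_nonneg_left (cert_pointwise ha' hb' hx hy) ht.1.le
    rw [hxd, hyd, artanh_tanh, artanh_tanh, ← hxd, ← hyd] at h
    have e : 1 - m = t * (1 - (x + y) / 2) := by rw [hm, toCorner]; ring
    rw [e, hd, hH]
    linarith
  rw [eT, hX, F0, show log 2 - (log 2 - 1 / 4) = 1 / 4 by ring]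
  rcases le_total d (9 / 20 * (1 - m)) with hq | hq
  · exact exit_small hm284 hd0 hq hmd hH0 hHX hE
      fun b' l' hb' _ e1 e2 => edge_ge_centred hK.cert hb' e1 e2
  · refine Check.eslicesOK_step _ _ Check.exitSlices_ok ?_ ?_ hd0.le hmd hH0 hHX hE hK
    · push_cast; linarith
    · push_cast; linarith

/-- **The step for the first term of the profile**, below `D = log 2 - 1/4`. -/
theorem info_step {m d H K : ℝ} (hm0 : 0 ≤ m) (hd : 0 < d) (hmd : m + d < 1) (hH : 0 < H)
    (hE : H ≤ (ent (m + d) + ent (m - d)) / 2) (hK : Check.Edge m d H K)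
    (hD : ent m - H ≤ log 2 - 1 / 4) :
    F0 (ent m - H) ≤ K + F0 ((ent (m + d) + ent (m - d)) / 2 - H) := by
  obtain ⟨b, l, hb, hl, ed, eH⟩ := exists_centred hd hH
  rcases le_or_gt l (1 - m) with hsym | hti
  · have hexit : ∀ t ∈ Ioc (0 : ℝ) 1, tiltD (tanh b) (-tanh b) t = log 2 - 1 / 4 →
        -log ((1 + toCorner t ((tanh b + -tanh b) / 2)) / 2) ≤ log 2 - 1 / 4 →
        F0 (tiltD (tanh b) (-tanh b) t) - F0 (tiltD (tanh b) (-tanh b) t
          - gapEnt (toCorner t (tanh b)) (toCorner t (-tanh b))) ≤ t * (b * tanh b) := by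
      intro t ht h1 h2
      have := exit_atom (a := 0) le_rfl hb ht
      simp only [zero_add, zero_sub, tanh_neg] at this
      refine (this h1 h2).trans (le_of_eq ?_)
      ring
    have h := sym_path hb hm0 (by linarith) hl hsym (by rw [symD, ← eH]; exact hD) hexit
    rw [symD_sub_gap, symD, ← eH, ← ed] at h
    linarith [edge_ge_centred hK.cert hb ed eH]
  · obtain ⟨a, c, t, ha, hc, ht, ht1, em, ed', eH'⟩ := exists_tilted hm0 hd hmd hE hb hti ed eH
    have e1 : tiltD (tanh (a + c)) (tanh (a - c)) t = ent m - H := by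
      rw [tiltD, toCorner, ← em, ← eH']
    have h := tilt_path ha hc ht ht1 (fun s hs h1 h2 => exit_atom ha hc hs h1 h2)
      (by rw [e1]; exact hD)
    rw [tiltD_sub_gap, e1, ← eH',
      show toCorner t (tanh (a + c)) = m + d by rw [toCorner, em, ed']; ring,
      show toCorner t (tanh (a - c)) = m - d by rw [toCorner, em, ed']; ring] at h
    have := edge_ge_atom hK.cert ha hc em ed' eH'
    linarith

end Vale.Agent.P322
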