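import Vale.Agent.P322.Check.Data.Small
import Vale.Agent.P322.Check.Data.Bands1
import Vale.Agent.P322.Check.Data.Bands2
import Vale.Agent.P322.Check.Data.Bands3
import Vale.Agent.P322.Check.Data.Bands4
import Vale.Agent.P322.Check.Data.Bands5
import Vale.Agent.P322.Scalar.SatP
import Vale.Agent.P322.Scalar.SatLarge
import Vale.Agent.P322.Scalar.AtomExists

/-!
# Courtade–Kumar: the saturation step
-/

namespace Vale.Agent.P322

open Real Set

namespace Check

/-- All bands, by decreasing slope. -/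
def allBands : List BandData := bands1 ++ (bands2 ++ (bands3 ++ (bands4 ++ bands5)))

/-- The bands cover the slopes between `lo` and `hi`. -/
def chainOK (lo : ℚ) : ℚ → List BandData → Bool
  | hi, [] => decide (hi < lo)
  | hi, B :: rest => decide (hi ≤ B.rhi) && chainOK lo B.rlo rest

theorem chainOK_mem {lo : ℚ} : ∀ (L : List BandData) (hi : ℚ), chainOK lo hi L = true →
    ∀ {e t : ℝ}, 0 ≤ t → e ≤ (hi : ℝ) * t → (lo : ℝ) * t < e →
      ∃ B ∈ L, (B.rlo : ℝ) * t ≤ e ∧ e ≤ (B.rhi : ℝ) * t := by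
  intro L
  induction L with
  | nil =>
    intro hi h e t ht h1 h2
    simp only [chainOK, decide_eq_true_eq] at h
    have h' : (hi : ℝ) ≤ (lo : ℝ) := by exact_mod_cast h.le
    linarith [mul_le_mul_of_nonneg_right h' ht]
  | cons B rest ih =>
    intro hi h e t ht h1 h2
    simp only [chainOK, Bool.and_eq_true, decide_eq_true_eq] at h
    rcases le_total ((B.rlo : ℝ) * t) e with hb | hb
    · refine ⟨B, List.mem_cons_self, hb, h1.trans (mul_le_mul_of_nonneg_right ?_ ht)⟩
      exact_mod_cast h.1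
    · obtain ⟨C, hC, hC'⟩ := ih B.rlo h.2 ht hb h2
      exact ⟨C, List.mem_cons_of_mem _ hC, hC'⟩

theorem allBands_chain : chainOK (499352 / 1000000000) (342329 / 100000) allBands = true := by
  decide +kernel

theorem allBands_ok : ∀ B ∈ allBands, B.ok = true := by
  intro B hB
  simp only [allBands, List.mem_append] at hB
  rcases hB with h | h | h | h | h
  exacts [bands1_ok B h, bands2_ok B h, bands3_ok B h, bands4_ok B h, bands5_ok B h]

theorem large_check : (1 : ℚ) < 22027 ∧
    (499352 / 1000000000 : ℚ) * tanhQ 22027 ≤ eLB 22027 ∧ 5 ≤ logLB 22027 / 2 := by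
  decide +kernel

end Check

open Check in
/-- **The saturation step.** -/
theorem sat_step {m d H K : ℝ} (hm0 : 0 ≤ m) (hd : 0 < d) (hmd : m + d < 1) (hH : 0 < H)
    (hE : H ≤ (ent (m + d) + ent (m - d)) / 2) (hK : Edge m d H K) :
    persp2 (satWeight m) H ≤ K + max (F0 ((ent (m + d) + ent (m - d)) / 2 - H))
      (persp2 ((satWeight (m + d) + satWeight (m - d)) / 2) H) := by
  obtain ⟨b, l, hb, hl, ed, eH⟩ := exists_centred hd hH
  have hcen := edge_ge_centred hK.cert hb ed eH
  have hm1 : m < 1 := by linarith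
  have hmI : m ∈ Ioo (-1 : ℝ) 1 := ⟨by linarith, hm1⟩
  have hw := satWeight_pos hmI
  have htb : 0 < tanh b := by simpa using strictMono_tanh' hb
  have viaP : persp2 (satWeight m) (l * ent (tanh b)) ≤ l * (b * tanh b)
      + persp2 ((satWeight (m + l * tanh b) + satWeight (m - l * tanh b)) / 2)
          (l * ent (tanh b)) →
      persp2 (satWeight m) H ≤ K + max (F0 ((ent (m + d) + ent (m - d)) / 2 - H))
        (persp2 ((satWeight (m + d) + satWeight (m - d)) / 2) H) := by
    intro h
    rw [← ed, ← eH] at h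
    exact h.trans (add_le_add hcen (le_max_right _ _))
  rcases le_total l (satWeight m / 2) with hcr | hcr
  · exact viaP (sat_P_crude hb hl hmI hcr)
  have htilt : 1 - m < l → ∃ a c t, 0 ≤ a ∧ 0 < c ∧ 0 < t ∧ t ≤ 1 ∧
      m = 1 - t * (1 - (tanh (a + c) + tanh (a - c)) / 2) ∧
      d = t * ((tanh (a + c) - tanh (a - c)) / 2) ∧
      H = t * ((ent (tanh (a + c)) + ent (tanh (a - c))) / 2) ∧
      t * (c * ((tanh (a + c) - tanh (a - c)) / 2)) ≤ K := fun h => by
    obtain ⟨a, c, t, ha, hc, ht, ht1, em, ed', eH'⟩ := exists_tilted hm0 hd hmd hE hb h ed eH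
    exact ⟨a, c, t, ha, hc, ht, ht1, em, ed', eH', edge_ge_atom hK.cert ha hc em ed' eH'⟩
  by_cases hsmall : ((342329 / 100000 : ℚ) : ℝ) * tanh b ≤ ent (tanh b)
  · -- small `b`
    have hb5 : b ≤ 1 / 5 := by
      have h := smallSlices_ok
      simp only [smallOK, Bool.and_eq_true, decide_eq_true_eq] at h
      obtain ⟨⟨⟨⟨⟨⟨h1, h2⟩, h3⟩, -⟩, -⟩, -⟩, -⟩ := h
      have h0 : (0 : ℚ) < 149 / 100 := by norm_num
      have hle : b ≤ pt (149 / 100) := by
        refine le_of_slope (ρ := ((342329 / 100000 : ℚ) : ℝ))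
          (div_pos (log_pos (by norm_num)) (by norm_num)) hb.le ?_ hsmall
        have h3' := (Rat.cast_le (K := ℝ)).2 h3
        rw [Rat.cast_mul, tanhQ_eq h0] at h3'
        exact (eLB_le h1.le).2.trans h3'
      have h2' := (Rat.cast_le (K := ℝ)).2 h2
      push_cast at h2'
      have hlog : log ((149 / 100 : ℚ) : ℝ) ≤ (logUB (149 / 100) : ℝ) := log_le_logUB h0
      unfold pt at hle
      push_cast at hlog hle ⊢
      linarith
    rcases le_total l (27 / 50 * satWeight m) with hl2 | hl2
    · exact viaP (sat_P_small hb hb5 hl hmI hl2)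
    · exact (small_step smallSlices_ok hm0 hd hmd hb hl2 ed eH hsmall hE hK).trans
        (add_le_add le_rfl (le_max_left _ _))
  push Not at hsmall
  by_cases hlarge : ((499352 / 1000000000 : ℚ) : ℝ) * tanh b < ent (tanh b)
  · obtain ⟨B, hB, hlo, hhi⟩ := chainOK_mem _ _ allBands_chain htb.le hsmall.le hlarge
    exact BandData.step (allBands_ok B hB) hm0 hd hmd hb hcr ed eH hlo hhi hE hK hcen htilt
  push Not at hlarge
  -- large `b`
  have hb5 : 5 ≤ b := by
    obtain ⟨h1, h2, h3⟩ := large_check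
    have h0 : (0 : ℚ) < 22027 := by norm_num
    have hge : pt 22027 ≤ b := by
      refine le_of_slope (ρ := ((499352 / 1000000000 : ℚ) : ℝ)) hb (pt_nonneg h1.le) hlarge ?_
      have h2' := (Rat.cast_le (K := ℝ)).2 h2
      rw [Rat.cast_mul, tanhQ_eq h0] at h2'
      exact h2'.trans (eLB_le h1.le).1
    have h3' := (Rat.cast_le (K := ℝ)).2 h3
    push_cast at h3'
    have hlog : (logLB 22027 : ℝ) ≤ log ((22027 : ℚ) : ℝ) := logLB_le_log h0
    unfold pt at hge
    push_cast at hlog hge ⊢
    linarith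
  rcases le_or_gt l ((1 - exp (-b)) * satWeight m) with hl2 | hl2
  · exact viaP (sat_P_large hb5 hl hmI hl2)
  refine le_trans ?_ (add_le_add le_rfl (le_max_left _ _))
  have hF := F0_ge_two (show 0 ≤ (ent (m + d) + ent (m - d)) / 2 - H by linarith)
    (by linarith [ent_le_log_two (m + d), ent_le_log_two (m - d)])
  rcases le_or_gt l (1 - m) with hsym | hti
  · have h := sat_sym_large hb5 hm0 hm1 hl hsym hl2
    rw [← ed, ← eH] at h
    linarith
  · obtain ⟨a, c, t, ha, hc, ht, ht1, em, ed', eH', hKt⟩ := htilt hti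
    have hrho : (ent (tanh (a + c)) + ent (tanh (a - c))) / 2 * tanh b
        = ent (tanh b) * ((tanh (a + c) - tanh (a - c)) / 2) := by
      refine mul_left_cancel₀ ht.ne' ?_
      rw [← mul_assoc, ← eH', mul_left_comm, ← ed', eH, ed]
      ring
    have hnotP : (1 - exp (-b))
          * satWeight (1 - t * (1 - (tanh (a + c) + tanh (a - c)) / 2))
        < t * ((tanh (a + c) - tanh (a - c)) / 2) / tanh b := by
      rw [← em, ← ed', ed, mul_div_cancel_right₀ _ htb.ne']
      exact hl2
    have h := sat_tilt_large ha hc hb5 ht ht1 hrho hnotP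
    rw [← em, ← eH', show 1 - t * (1 - tanh (a + c)) = m + d by rw [em, ed']; ring,
      show 1 - t * (1 - tanh (a - c)) = m - d by rw [em, ed']; ring] at h
    linarith

end Vale.Agent.P322
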