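import Vale.Agent.P322.Glue.ExitLemma
import Vale.Agent.P322.Glue.SatStep
import Vale.Agent.P322.Assembly

/-!
# Courtade–Kumar: the profile with the linear tail passes the two-point step
-/

namespace Vale.Agent.P322

open Real Set

/-- The profile: the first term or the perspective of `Phi2`. -/
noncomputable def profile2 (m H : ℝ) : ℝ :=
  max (Phi (H + phiFn m)) (persp2 (satWeight m) H)

theorem profile2_base : ∀ m ∈ Ioo (-1 : ℝ) 1, profile2 m (ent m) ≤ 0 := by
  intro m hm
  have hw := satWeight_pos hm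
  refine max_le ?_ ?_
  · rw [show ent m + phiFn m = log 2 by rw [phiFn]; ring, Phi_of_log_two_le le_rfl]
  · refine mul_nonpos_of_nonneg_of_nonpos hw.le ?_
    have h : log 2 ≤ ent m / satWeight m := by
      rw [le_div_iff₀ hw, mul_comm]
      exact satWeight_mul_log_two_le_ent ⟨hm.1.le, hm.2.le⟩
    refine (Phi2_le_Phi ((log_pos one_lt_two).trans_le h)).trans (le_of_eq ?_)
    exact Phi_of_log_two_le h

theorem F0_le_profile2 (m H : ℝ) : F0 (ent m - H) ≤ profile2 m H := by
  refine le_trans (le_of_eq ?_) (le_max_left _ _)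
  rw [F0, phiFn]
  ring_nf

lemma Phi_eq_F0 (m H : ℝ) : Phi (H + phiFn m) = F0 (ent m - H) := by
  rw [F0, phiFn]; ring_nf

/-- The step for a nonnegative mean and half difference. -/
theorem step_nonneg {m d H K : ℝ} (hm0 : 0 ≤ m) (hd0 : 0 ≤ d) (hmd : m + d < 1) (hH : 0 < H)
    (hE : H ≤ (ent (m + d) + ent (m - d)) / 2) (hK : Check.Edge m d H K) :
    profile2 m H ≤ K + max (F0 ((ent (m + d) + ent (m - d)) / 2 - H))
      (persp2 ((satWeight (m + d) + satWeight (m - d)) / 2) H) := by
  rcases hd0.eq_or_lt with rfl | hd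
  · have e1 : (ent (m + 0) + ent (m - 0)) / 2 = ent m := by ring_nf
    have e2 : (satWeight (m + 0) + satWeight (m - 0)) / 2 = satWeight m := by ring_nf
    rw [e1, e2, profile2, Phi_eq_F0]
    exact le_add_of_nonneg_left hK.nonneg
  rw [profile2]
  have hS := sat_step hm0 hd hmd hH hE hK
  refine max_le ?_ hS
  rcases le_or_gt (ent m - H) (log 2 - 1 / 4) with hD | hD
  · rw [Phi_eq_F0]
    exact (info_step hm0 hd hmd hH hE hK hD).trans (add_le_add le_rfl (le_max_left _ _))
  · refine le_trans ?_ hS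
    have hmI : m ∈ Ioo (-1 : ℝ) 1 := ⟨by linarith, by linarith⟩
    have hw := satWeight_pos hmI
    have he : H + phiFn m ≤ 1 / 4 := by rw [phiFn]; linarith
    have hq : H / satWeight m ≤ 1 / 4 := by
      rw [div_le_iff₀ hw]
      have h2 := quartic_le_phiFn (x := m) ⟨hmI.1.le, hmI.2.le⟩
      unfold satWeight
      linarith [sq_nonneg m, sq_nonneg (m ^ 2), show m ^ 4 = (m ^ 2) ^ 2 by ring,
        show (1 - m ^ 2) * (8 + m ^ 2) / 8 = 1 - 7 / 8 * m ^ 2 - m ^ 4 / 8 by ring]
    rw [persp2, Phi2, if_pos hq]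
    exact Phi_le_satTerm hmI hH he

lemma artanh_neg_eq {x : ℝ} (hx : x ∈ Ioo (-1 : ℝ) 1) : artanh (-x) = -artanh x := by
  conv_lhs => rw [← tanh_artanh hx, ← tanh_neg, artanh_tanh]

lemma satWeight_sum_abs (m d : ℝ) :
    satWeight (|m| + |d|) + satWeight (|m| - |d|) = satWeight (m + d) + satWeight (m - d) := by
  rcases abs_choice m with h | h <;> rcases abs_choice d with h' | h' <;> rw [h, h']
  · rw [add_comm m (-d), ← sub_eq_neg_add, sub_neg_eq_add, add_comm (satWeight (m - d))]
  · rw [show -m + d = -(m - d) by ring, show -m - d = -(m + d) by ring, satWeight_neg,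
      satWeight_neg, add_comm]
  · rw [show -m + -d = -(m + d) by ring, show -m - -d = -(m - d) by ring, satWeight_neg,
      satWeight_neg]

lemma ent_sum_abs (m d : ℝ) :
    ent (|m| + |d|) + ent (|m| - |d|) = ent (m + d) + ent (m - d) := by
  rcases abs_choice m with h | h <;> rcases abs_choice d with h' | h' <;> rw [h, h']
  · rw [add_comm m (-d), ← sub_eq_neg_add, sub_neg_eq_add, add_comm (ent (m - d))]
  · rw [show -m + d = -(m - d) by ring, show -m - d = -(m + d) by ring, ent_neg, ent_neg,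
      add_comm]
  · rw [show -m + -d = -(m + d) by ring, show -m - -d = -(m - d) by ring, ent_neg, ent_neg]

/-- The certificates bound the edge term at `(|m|, |d|)`. -/
theorem edge_of_family {ι : Type} [Fintype ι] (w x y : ι → ℝ) (hw : ∀ i, 0 ≤ w i)
    (hw1 : ∑ i, w i = 1) (hx : ∀ i, x i ∈ Ioo (-1 : ℝ) 1) (hy : ∀ i, y i ∈ Ioo (-1 : ℝ) 1) :
    Check.Edge |(∑ i, w i * x i + ∑ i, w i * y i) / 2| |(∑ i, w i * x i - ∑ i, w i * y i) / 2|
      ((∑ i, w i * ent (x i) + ∑ i, w i * ent (y i)) / 2)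
      ((∑ i, w i * ((x i - y i) * (artanh (x i) - artanh (y i)))) / 4) := by
  refine ⟨div_nonneg (Finset.sum_nonneg fun i _ => mul_nonneg (hw i) ?_) (by norm_num),
    fun a b ha hb => ?_⟩
  · rcases le_total (x i) (y i) with h | h
    · exact mul_nonneg_of_nonpos_of_nonpos (sub_nonpos.2 h)
        (sub_nonpos.2 (artanh_le_artanh (hx i).1 (hy i).2 h))
    · exact mul_nonneg (sub_nonneg.2 h) (sub_nonneg.2 (artanh_le_artanh (hy i).1 (hx i).2 h))
  have hx' : ∀ i, -x i ∈ Ioo (-1 : ℝ) 1 := fun i => ⟨by linarith [(hx i).2], by linarith [(hx i).1]⟩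
  have hy' : ∀ i, -y i ∈ Ioo (-1 : ℝ) 1 := fun i => ⟨by linarith [(hy i).2], by linarith [(hy i).1]⟩
  have h1 := cert_sum ha hb w x y hw hw1 hx hy
  have h2 := cert_sum ha hb w y x hw hw1 hy hx
  have h3 := cert_sum ha hb w (fun i => -x i) (fun i => -y i) hw hw1 hx' hy'
  have h4 := cert_sum ha hb w (fun i => -y i) (fun i => -x i) hw hw1 hy' hx'
  have e2 : ∀ i, (y i - x i) * (artanh (y i) - artanh (x i))
      = (x i - y i) * (artanh (x i) - artanh (y i)) := fun i => by ring
  have e3 : ∀ i, (-x i - -y i) * (artanh (-x i) - artanh (-y i))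
      = (x i - y i) * (artanh (x i) - artanh (y i)) := fun i => by
    rw [artanh_neg_eq (hx i), artanh_neg_eq (hy i)]; ring
  have e4 : ∀ i, (-y i - -x i) * (artanh (-y i) - artanh (-x i))
      = (x i - y i) * (artanh (x i) - artanh (y i)) := fun i => by
    rw [artanh_neg_eq (hx i), artanh_neg_eq (hy i)]; ring
  simp only [e2, e3, e4, mul_neg, Finset.sum_neg_distrib, ent_neg] at h2 h3 h4
  rcases abs_choice ((∑ i, w i * x i + ∑ i, w i * y i) / 2) with h | h <;>
    rcases abs_choice ((∑ i, w i * x i - ∑ i, w i * y i) / 2) with h' | h' <;>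
    rw [h, h'] <;> linarith

/-- **The two-point step.** -/
theorem profile2_step : StepInequality profile2 := by
  intro ι _ w x y hw hw1 hx hy
  set p := ∑ i, w i * x i with hp
  set q := ∑ i, w i * y i with hq
  set u := ∑ i, w i * ent (x i) with hu
  set v := ∑ i, w i * ent (y i) with hv
  set K := (∑ i, w i * ((x i - y i) * (artanh (x i) - artanh (y i)))) / 4 with hKd
  have hmem : ∀ z : ι → ℝ, (∀ i, z i ∈ Ioo (-1 : ℝ) 1) →
      ∑ i, w i * z i ∈ Ioo (-1 : ℝ) 1 ∧ 0 < ∑ i, w i * ent (z i) ∧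
        ∑ i, w i * ent (z i) ≤ ent (∑ i, w i * z i) := by
    intro z hz
    have a := (convex_Ioo (-1 : ℝ) 1).sum_mem (t := Finset.univ) (fun i _ => hw i) hw1
      (fun i _ => hz i)
    have b := (convex_Ioi (0 : ℝ)).sum_mem (t := Finset.univ) (fun i _ => hw i) hw1
      (fun i _ => Skel.hbin_pos (hz i).1 (hz i).2)
    have c := concaveOn_ent.le_map_sum (t := Finset.univ) (fun i _ => hw i) hw1
      (fun i _ => Ioo_subset_Icc_self (hz i))
    simp only [smul_eq_mul] at a b c
    exact ⟨a, b, c⟩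
  obtain ⟨hp1, hu0, hup⟩ := hmem x hx
  obtain ⟨hq1, hv0, hvq⟩ := hmem y hy
  have hK := edge_of_family w x y hw hw1 hx hy
  rw [← hp, ← hq, ← hu, ← hv, ← hKd] at hK
  have ep : (p + q) / 2 + (p - q) / 2 = p := by ring
  have eq : (p + q) / 2 - (p - q) / 2 = q := by ring
  have esum := ent_sum_abs ((p + q) / 2) ((p - q) / 2)
  have wsum := satWeight_sum_abs ((p + q) / 2) ((p - q) / 2)
  rw [ep, eq] at esum wsum
  have hmd : |(p + q) / 2| + |(p - q) / 2| < 1 := by
    rcases abs_choice ((p + q) / 2) with h | h <;> rcases abs_choice ((p - q) / 2) with h' | h' <;>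
      rw [h, h'] <;> linarith [hp1.1, hp1.2, hq1.1, hq1.2]
  have hstep := step_nonneg (abs_nonneg _) (abs_nonneg _) hmd
    (show 0 < (u + v) / 2 by linarith) (by rw [esum]; linarith) hK
  rw [esum, wsum] at hstep
  have eprof : profile2 |(p + q) / 2| ((u + v) / 2) = profile2 ((p + q) / 2) ((u + v) / 2) := by
    rcases abs_choice ((p + q) / 2) with h | h <;> rw [h]
    rw [profile2, profile2, phiFn_neg, satWeight_neg]
  rw [eprof] at hstep
  refine hstep.trans ?_
  rw [add_comm]
  refine add_le_add (max_le ?_ ?_) le_rfl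
  · have h := convexOn_Phi.2 (show u + phiFn p ∈ Ioi 0 from
        lt_of_lt_of_le hu0 (le_add_of_nonneg_right (phiFn_nonneg p)))
      (show v + phiFn q ∈ Ioi 0 from
        lt_of_lt_of_le hv0 (le_add_of_nonneg_right (phiFn_nonneg q)))
      (show (0 : ℝ) ≤ 1 / 2 by norm_num) (show (0 : ℝ) ≤ 1 / 2 by norm_num) (by norm_num)
    simp only [smul_eq_mul] at h
    have e : log 2 - ((ent p + ent q) / 2 - (u + v) / 2)
        = 1 / 2 * (u + phiFn p) + 1 / 2 * (v + phiFn q) := by rw [phiFn, phiFn]; ring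
    rw [F0, e]
    refine h.trans ?_
    have a := le_max_left (Phi (u + phiFn p)) (persp2 (satWeight p) u)
    have b := le_max_left (Phi (v + phiFn q)) (persp2 (satWeight q) v)
    unfold profile2
    linarith
  · have hwp := satWeight_pos hp1
    have hwq := satWeight_pos hq1
    have h := persp2_convex (a := 1 / 2) (b := 1 / 2) (by norm_num) (by norm_num) hwp hwq hu0 hv0
      (by linarith) (by linarith)
    rw [show 1 / 2 * satWeight p + 1 / 2 * satWeight q = (satWeight p + satWeight q) / 2 by ring,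
      show 1 / 2 * u + 1 / 2 * v = (u + v) / 2 by ring] at h
    refine h.trans ?_
    have a := le_max_right (Phi (u + phiFn p)) (persp2 (satWeight p) u)
    have b := le_max_right (Phi (v + phiFn q)) (persp2 (satWeight q) v)
    unfold profile2
    linarith

/-- **The Courtade–Kumar inequality.** -/
theorem courtadeKumar (n : ℕ) (f : (Fin n → Bool) → Bool) (ε : ℝ) (h0 : 0 ≤ ε) (h1 : ε ≤ 1 / 2) :
    mutualInfoBits (jointProb f ε) ≤ 1 - entropyBits ε :=
  Skel.courtadeKumar_of_stepInequality profile2 profile2_base F0_le_profile2 profile2_step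
    n f ε h0 h1

end Vale.Agent.P322
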